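import Mathlib

/-!
# Row 255 (helper16): homotopy groups of the base of a covering
-/

set_option autoImplicit false
open Set Topology unitInterval

noncomputable section

namespace Crest.Agent.N255.Kc

variable {E X : Type} [TopologicalSpace E] [TopologicalSpace X] {p : E → X}

/-- a map from a cube lifts -/
theorem cube_lift (hp : IsCoveringMap p) (hs : Function.Surjective p) {n : ℕ}
    (f : C(Fin n → I, X)) : ∃ F : C(Fin n → I, E), ∀ y, p (F y) = f y := by
  obtain ⟨e, he⟩ := hs (f fun _ => 0)
  have hc : Continuous fun q : I × (Fin n → I) => fun i => q.1 * q.2 i :=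
    continuous_pi fun i => Continuous.subtype_mk (by fun_prop) _
  let H : C(I × (Fin n → I), X) := f.comp ⟨_, hc⟩
  have h0 : ∀ a, H (0, a) = p (ContinuousMap.const (Fin n → I) e a) := fun a => by
    simp [H, he]
  refine ⟨(hp.liftHomotopy H _ h0).comp ⟨fun y => (1, y), by fun_prop⟩, fun y => ?_⟩
  have := congrFun (hp.liftHomotopy_lifts H _ h0) (1, y)
  simpa [H] using this

theorem pi_base (hp : IsCoveringMap p) (hs : Function.Surjective p) {n : ℕ} (hn : 2 ≤ n)
    (h : ∀ e : E, Subsingleton (HomotopyGroup (Fin n) E e)) (x : X) :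
    Subsingleton (HomotopyGroup (Fin n) X x) := by
  have key : ∀ f : GenLoop (Fin n) X x, GenLoop.Homotopic f GenLoop.const := by
    intro f
    obtain ⟨F, hF⟩ := cube_lift hp hs f.1
    have face : ∀ (i : Fin n) (t : I), t = 0 ∨ t = 1 → ∀ y z : Fin n → I, y i = t → z i = t →
        F y = F z := by
      intro i t ht y z hy hz
      have hb : ∀ w : Fin n → I, p (F (Function.update w i t)) = x := fun w => by
        rw [hF]
        exact f.2 _ ⟨i, by simpa using ht⟩
      have := hp.const_of_comp (g := fun w : Fin n → I => F (Function.update w i t))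
        (F.continuous.comp (continuous_id.update i continuous_const))
        (fun a a' => (hb a).trans (hb a').symm) y z
      rwa [← hy, Function.update_eq_self, hy, ← hz, Function.update_eq_self] at this
    have : Nontrivial (Fin n) := Fin.nontrivial_iff_two_le.2 hn
    have hb : ∀ y ∈ Cube.boundary (Fin n), F y = F fun _ => 0 := by
      rintro y ⟨i, hi⟩
      obtain ⟨j, hj⟩ := exists_ne i
      rw [face i (y i) hi y (Function.update (fun _ => 0) i (y i)) rfl (by simp)]
      exact face j 0 (Or.inl rfl) _ _ (by simp [hj]) rfl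
    have hx : p (F fun _ => 0) = x := by
      rw [hF]
      exact f.2 _ ⟨⟨0, by omega⟩, Or.inl rfl⟩
    let F' : GenLoop (Fin n) E (F fun _ => 0) := ⟨F, hb⟩
    have h1 : GenLoop.Homotopic F' GenLoop.const :=
      Quotient.exact ((h _).elim (Quotient.mk _ F') (Quotient.mk _ GenLoop.const))
    have h2 := ContinuousMap.HomotopicRel.comp_continuousMap h1 ⟨p, hp.continuous⟩
    have e1 : (⟨p, hp.continuous⟩ : C(E, X)).comp F'.1 = f.1 := ContinuousMap.ext hF
    have e2 : (⟨p, hp.continuous⟩ : C(E, X)).comp (GenLoop.const : GenLoop (Fin n) E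
      (F fun _ => 0)).1 = (GenLoop.const : GenLoop (Fin n) X x).1 := ContinuousMap.ext fun _ => hx
    rw [e1, e2] at h2
    exact h2
  refine ⟨fun a b => ?_⟩
  induction a using Quotient.inductionOn with | _ f => ?_
  induction b using Quotient.inductionOn with | _ g => ?_
  exact Quotient.sound ((key f).trans (key g).symm)

end Crest.Agent.N255.Kc

end
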