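import Crest.Agent.N255.Kc.Defs
import Crest.Agent.N255.Kc.Pi

/-!
# Row 255 (helper16): the finite complex `K` of chains modulo `G` and the covering `Re P → K`
-/

set_option autoImplicit false
open Set Function Topology

noncomputable section

namespace Crest.Agent.N255.Kc

open Crest.Agent.N255.Mo
open scoped Classical

variable {G P : Type} [Group G] [PartialOrder P] [MulAction G P]
  [CovariantClass G P (· • ·) (· ≤ ·)] {N : ℕ}

/-- the standard basis -/
def ev (i : Fin N) : EuclideanSpace ℝ (Fin N) := EuclideanSpace.single i 1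

theorem li_ev : LinearIndependent ℝ (ev (N := N)) := by
  have e : ev (N := N) = (EuclideanSpace.basisFun (Fin N) ℝ).toBasis := by
    ext1 i
    simp [ev]
  exact e ▸ (EuclideanSpace.basisFun (Fin N) ℝ).toBasis.linearIndependent

/-- the complex of chains, labelled by `cl` -/
def cx (cl : P → Fin N) : Geometry.SimplicialComplex ℝ (EuclideanSpace ℝ (Fin N)) :=
  Geometry.SimplicialComplex.ofAffineIndependent
    ⟨{s | ∃ t : Finset P, t.Nonempty ∧ IsChain (· ≤ ·) (t : Set P) ∧ s = t.image (ev ∘ cl)}, by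
      rintro _ ⟨t, hn, ht, rfl⟩
      refine ⟨hn.image _, fun b hb hb' => ?_⟩
      obtain ⟨u, hu, rfl⟩ := Finset.subset_image_iff.1 hb
      exact ⟨u, hb'.of_image, ht.mono hu, rfl⟩⟩
    (li_ev.affineIndependent.range.mono fun x hx => by
      simp only [mem_iUnion, Finset.mem_coe] at hx
      obtain ⟨_, ⟨t, -, -, rfl⟩, hx⟩ := hx
      obtain ⟨a, -, rfl⟩ := Finset.mem_image.1 hx
      exact ⟨_, rfl⟩)

theorem mem_cx {cl : P → Fin N} {s : Finset (EuclideanSpace ℝ (Fin N))} : s ∈ (cx cl).faces ↔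
    ∃ t : Finset P, t.Nonempty ∧ IsChain (· ≤ ·) (t : Set P) ∧ s = t.image (ev ∘ cl) := Iff.rfl

theorem fin_cx (cl : P → Fin N) : (cx cl).faces.Finite :=
  (Finset.univ.image ev).powerset.finite_toSet.subset fun s hs => by
    obtain ⟨t, -, -, rfl⟩ := mem_cx.1 hs
    refine Finset.mem_powerset.2 fun x hx => ?_
    obtain ⟨a, -, rfl⟩ := Finset.mem_image.1 hx
    exact Finset.mem_image_of_mem _ (Finset.mem_univ _)

/-- the projection -/
def q0 (cl : P → Fin N) (μ : Re P) : EuclideanSpace ℝ (Fin N) := ∑ a ∈ sp μ, μ.1 a • ev (cl a)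

theorem q0_eq (cl : P → Fin N) {μ : Re P} {t : Finset P} (ht : support μ.1 ⊆ t) :
    q0 cl μ = ∑ a ∈ t, μ.1 a • ev (cl a) :=
  Finset.sum_subset (fun _ ha => ht (mem_sp.1 ha)) fun a _ ha => by
    rw [not_not.1 (mem_sp.not.1 ha), zero_smul]

theorem q0_apply (cl : P → Fin N) (μ : Re P) (i : Fin N) :
    q0 cl μ i = ∑ a ∈ sp μ, if cl a = i then μ.1 a else 0 := by
  simp [q0, ev, Pi.single_apply, eq_comm]

theorem q0_mem (cl : P → Fin N) (μ : Re P) : q0 cl μ ∈ (cx cl).space :=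
  Geometry.SimplicialComplex.mem_space_iff.2 ⟨_, mem_cx.2 ⟨sp μ, sp_nonempty μ, chain_sp μ, rfl⟩,
    (convex_convexHull ℝ _).sum_mem (fun a _ => μ.2.1 a) (sum_sp μ) fun a ha =>
      subset_convexHull ℝ _ (Finset.mem_image_of_mem (ev ∘ cl) ha)⟩

/-- the projection -/
def q (cl : P → Fin N) (μ : Re P) : (cx cl).space := ⟨q0 cl μ, q0_mem cl μ⟩

namespace PG

variable (h : PG G P) {cl : P → Fin N} (hc : ∀ a b, cl a = cl b ↔ ∃ g : G, g • b = a)
include h

theorem cont_q (cl : P → Fin N) : Continuous (q cl) := by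
  refine Continuous.subtype_mk (continuous_iff_continuousAt.2 fun μ => ?_) _
  obtain ⟨a, ha⟩ := sp_nonempty μ
  have c1 : Continuous fun ν : Re P => ∑ b ∈ (h.lf a).toFinset, ν.1 b • ev (cl b) :=
    continuous_finsetSum _ fun b _ => (cont_co b).smul continuous_const
  refine c1.continuousAt.congr ?_
  filter_upwards [(cont_co a).continuousAt.eventually_ne (mem_sp.1 ha)] with ν hν
  exact (q0_eq cl fun b hb => by simpa using ν.2.2.2.2.total hν hb).symm

include hc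

theorem injOn {s : Set P} (hs : IsChain (· ≤ ·) s) : InjOn cl s := fun a ha b hb e => by
  obtain ⟨g, rfl⟩ := (hc a b).1 e
  rw [h.eq_one_of_chain hs hb ha, one_smul]

theorem q0_cl {μ : Re P} {a : P} (ha : μ.1 a ≠ 0) : q0 cl μ (cl a) = μ.1 a := by
  rw [q0_apply, Finset.sum_eq_single_of_mem a (mem_sp.2 ha), if_pos rfl]
  exact fun b hb hab => if_neg fun e => hab (h.injOn hc μ.2.2.2.2 (mem_sp.1 hb) ha e)

theorem exists_of_eq {μ ν : Re P} (e : q0 cl μ = q0 cl ν) {a : P} (ha : μ.1 a ≠ 0) :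
    ∃ g : G, ν.1 (g • a) = μ.1 a := by
  have h1 := h.q0_cl hc ha
  have h2 := h1
  rw [e, q0_apply] at h2
  obtain ⟨b, hb, h3⟩ := Finset.exists_ne_zero_of_sum_ne_zero (h2.trans_ne ha)
  have h4 : cl b = cl a := by
    by_contra h4
    exact h3 (if_neg h4)
  obtain ⟨g, rfl⟩ := (hc b a).1 h4
  exact ⟨g, by rw [← h1, e, ← h4, h.q0_cl hc (mem_sp.1 hb)]⟩

omit h in
theorem q0_smul (g : G) (μ : Re P) : q0 cl (g • μ) = q0 cl μ := by
  rw [q0_eq cl (t := (sp μ).image (g • ·)) (by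
    rw [Finset.coe_image, coe_sp]; exact (supp_smul g μ.1).le),
    Finset.sum_image fun _ _ _ _ e => smul_left_cancel g e]
  exact Finset.sum_congr rfl fun a _ => by rw [smul_apply_smul, (hc (g • a) a).2 ⟨g, rfl⟩]

theorem eq_of_top {μ ν : Re P} (e : q0 cl μ = q0 cl ν) {m : P} (hμ : ∀ a, μ.1 a ≠ 0 → a ≤ m)
    (hν : ∀ a, ν.1 a ≠ 0 → a ≤ m) {a : P} (ha : μ.1 a ≠ 0) : ν.1 a = μ.1 a := by
  obtain ⟨g, hg⟩ := h.exists_of_eq hc e ha
  rwa [h.reg g a m (hμ a ha) (hν _ (hg.trans_ne ha)), one_smul] at hg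

theorem q0_eq_iff {μ ν : Re P} : q0 cl μ = q0 cl ν ↔ μ ∈ MulAction.orbit G ν := by
  refine ⟨fun e => ?_, ?_⟩
  · obtain ⟨m, hm, hm'⟩ := exists_top (sp_nonempty μ) (chain_sp μ)
    obtain ⟨n, hn, hn'⟩ := exists_top (sp_nonempty ν) (chain_sp ν)
    obtain ⟨g, hg⟩ := h.exists_of_eq hc e (mem_sp.1 hm)
    obtain ⟨k, hk⟩ := h.exists_of_eq hc e.symm (mem_sp.1 hn)
    have h1 : g • m ≤ n := hn' _ (mem_sp.2 (hg.trans_ne (mem_sp.1 hm)))
    have h2 : k • n ≤ m := hm' _ (mem_sp.2 (hk.trans_ne (mem_sp.1 hn)))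
    have e' : q0 cl μ = q0 cl (k • ν) := e.trans (q0_smul hc k ν).symm
    have hμ : ∀ a, μ.1 a ≠ 0 → a ≤ m := fun a ha => hm' a (mem_sp.2 ha)
    have hν : ∀ a, (k • ν).1 a ≠ 0 → a ≤ m := fun a ha => by
      have := smul_mono k (hn' _ (mem_sp.2 ha))
      rw [smul_inv_smul] at this
      exact this.trans h2
    refine ⟨k, Subtype.ext (funext fun a => ?_)⟩
    by_cases ha : μ.1 a = 0
    · by_contra hb
      exact hb (h.eq_of_top hc e'.symm hν hμ fun e0 => hb (e0.trans ha.symm)).symm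
    · exact h.eq_of_top hc e' hμ hν ha
  · rintro ⟨g, rfl⟩
    exact q0_smul hc g ν

theorem surj_q : Surjective (q cl) := by
  rintro ⟨x, hx⟩
  obtain ⟨_, ⟨t, -, ht, rfl⟩, hx'⟩ := Geometry.SimplicialComplex.mem_space_iff.1 hx
  obtain ⟨w, h0, h1, h2⟩ := Finset.mem_convexHull'.1 hx'
  have hi : InjOn (ev ∘ cl) t := li_ev.injective.comp_injOn (h.injOn hc ht)
  rw [Finset.sum_image hi] at h1 h2
  have hs : support (fun a => if a ∈ t then w (ev (cl a)) else 0) ⊆ t := fun a ha => by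
    by_contra hb
    exact ha (if_neg hb)
  refine ⟨⟨fun a => if a ∈ t then w (ev (cl a)) else 0, fun a => ?_, t.finite_toSet.subset hs,
    ?_, ht.mono hs⟩, Subtype.ext ?_⟩
  · dsimp only
    split_ifs with ha
    · exact h0 _ (Finset.mem_image_of_mem (ev ∘ cl) ha)
    · exact le_rfl
  · rw [finsum_eq_sum_of_support_subset _ hs, ← h1]
    exact Finset.sum_congr rfl fun a ha => if_pos ha
  · refine (q0_eq cl hs).trans (Eq.trans ?_ h2)
    exact Finset.sum_congr rfl fun a ha => by simp only [if_pos ha, comp]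

omit hc in
/-- a compact set meets every orbit -/
theorem cocompact : ∃ D : Set (Re P), IsCompact D ∧ ∀ μ : Re P, ∃ g : G, g • μ ∈ D := by
  obtain ⟨F, hF, hg⟩ := h.exists_dom
  refine ⟨_, isCompact_sub hF, fun μ => ?_⟩
  obtain ⟨m, -, hm⟩ := exists_top (sp_nonempty μ) (chain_sp μ)
  obtain ⟨g, hg⟩ := hg m
  exact ⟨g, fun a ha => by simpa using hg _ (hm _ (mem_sp.2 ha))⟩

omit hc in
theorem disjoint (μ : Re P) : ∃ U ∈ 𝓝 μ, ∀ g : G, ((g • ·) '' U ∩ U).Nonempty → g = 1 := by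
  obtain ⟨a, ha⟩ := sp_nonempty μ
  refine ⟨_, (cont_co a).continuousAt.eventually_ne (mem_sp.1 ha), ?_⟩
  rintro g ⟨_, ⟨ν, h1, rfl⟩, h2⟩
  exact h.free_re h1 h2

theorem isQuotientCoveringMap : IsQuotientCoveringMap (q cl) G where
  toIsQuotientMap := by
    obtain ⟨D, hD, hg⟩ := h.cocompact
    have := isCompact_iff_compactSpace.1 hD
    refine IsQuotientMap.of_comp (f := (Subtype.val : D → Re P)) continuous_subtype_val
      (h.cont_q cl) (IsQuotientMap.of_surjective_continuous (fun x => ?_)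
        ((h.cont_q cl).comp continuous_subtype_val))
    obtain ⟨μ, rfl⟩ := h.surj_q hc x
    obtain ⟨g, hg⟩ := hg μ
    exact ⟨⟨_, hg⟩, Subtype.ext (q0_smul hc g μ)⟩
  continuous_const_smul := continuous_const_smul
  apply_eq_iff_mem_orbit := Subtype.ext_iff.trans (h.q0_eq_iff hc)
  disjoint := h.disjoint

omit hc [CovariantClass G P (· • ·) (· ≤ ·)] in
theorem exists_cl : ∃ (N : ℕ) (cl : P → Fin N), ∀ a b, cl a = cl b ↔ ∃ g : G, g • b = a := by
  have := h.fin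
  obtain ⟨N, ⟨e⟩⟩ := Finite.exists_equiv_fin (MulAction.orbitRel.Quotient G P)
  exact ⟨N, fun a => e (Quotient.mk _ a), fun a b => e.injective.eq_iff.trans Quotient.eq⟩

end PG

/-- the clause of S0393 on the classifying complex -/
def KCl (G : Type) [Group G] : Prop :=
  ∃ (N : ℕ) (K : Geometry.SimplicialComplex ℝ (EuclideanSpace ℝ (Fin N))),
    K.faces.Finite ∧ (∀ s ∈ K.faces, s.card ≤ 5) ∧ PathConnectedSpace K.space ∧
    (∀ n : ℕ, 2 ≤ n → ∀ x : K.space, Subsingleton (HomotopyGroup (Fin n) K.space x)) ∧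
    ∃ x : K.space, Nonempty (FundamentalGroup K.space x ≃* G)

theorem PG.kCl (h : PG G P) [SimplyConnectedSpace (Re P)]
    (hπ : ∀ n : ℕ, 2 ≤ n → ∀ μ : Re P, Subsingleton (HomotopyGroup (Fin n) (Re P) μ)) : KCl G := by
  obtain ⟨N, cl, hc⟩ := h.exists_cl
  have hq := h.isQuotientCoveringMap hc
  obtain ⟨μ⟩ : Nonempty (Re P) := inferInstance
  refine ⟨N, cx cl, fin_cx cl, fun s hs => ?_, hq.surjective.pathConnectedSpace hq.continuous,
    fun n hn => pi_base hq.isCoveringMap hq.surjective hn (hπ n hn), q cl μ,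
    ⟨(hq.fundamentalGroupEquiv ⟨μ, rfl⟩).trans (MulEquiv.inv' G).symm⟩⟩
  obtain ⟨t, -, ht, rfl⟩ := mem_cx.1 hs
  exact Finset.card_image_le.trans (h.dim t ht)

end Crest.Agent.N255.Kc

end
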