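import Crest.Agent.N255.Mo.Re

/-!
# Row 255 (helper16): group actions on posets of cells and on their realisations
-/

set_option autoImplicit false
open Set Function Topology

noncomputable section

namespace Crest.Agent.N255.Kc

open Crest.Agent.N255.Mo

/-- a regular cocompact action on a poset of cells -/
structure PG (G P : Type) [Group G] [PartialOrder P] [MulAction G P] : Prop where
  reg : ∀ (g : G) (a c : P), a ≤ c → g • a ≤ c → g = 1
  fin : Finite (MulAction.orbitRel.Quotient G P)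
  low : ∀ c : P, (Iic c).Finite
  dim : ∀ s : Finset P, IsChain (· ≤ ·) (s : Set P) → s.card ≤ 5

variable {G P : Type} [Group G] [PartialOrder P] [MulAction G P]
  [CovariantClass G P (· • ·) (· ≤ ·)]

theorem smul_mono (g : G) {a b : P} (h : a ≤ b) : g • a ≤ g • b := CovariantClass.elim g h

theorem smul_le_iff (g : G) {a b : P} : g • a ≤ g • b ↔ a ≤ b :=
  ⟨fun h => by simpa using smul_mono g⁻¹ h, smul_mono g⟩

theorem supp_smul (g : G) (μ : P → ℝ) :
    support (fun a => μ (g⁻¹ • a)) = (g • ·) '' support μ := by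
  ext a
  exact ⟨fun h => ⟨g⁻¹ • a, h, smul_inv_smul g a⟩, by
    rintro ⟨b, hb, rfl⟩
    simpa using hb⟩

theorem chain_smul (g : G) {s : Set P} (h : IsChain (· ≤ ·) s) :
    IsChain (· ≤ ·) ((g • ·) '' s) := by
  rintro _ ⟨a, ha, rfl⟩ _ ⟨b, hb, rfl⟩ hab
  exact (h ha hb fun e => hab (by rw [e])).imp (smul_mono g) (smul_mono g)

instance : MulAction G (Re P) where
  smul g μ := ⟨fun a => μ.1 (g⁻¹ • a), fun _ => μ.2.1 _, by
      rw [supp_smul]; exact μ.2.2.1.image _,
      (finsum_comp_equiv (MulAction.toPerm g⁻¹) (f := μ.1)).trans μ.2.2.2.1, by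
      rw [supp_smul]; exact chain_smul g μ.2.2.2.2⟩
  one_smul μ := Subtype.ext (funext fun a => by
    change μ.1 ((1 : G)⁻¹ • a) = μ.1 a
    rw [inv_one, one_smul])
  mul_smul g h μ := Subtype.ext (funext fun a => by
    change μ.1 ((g * h)⁻¹ • a) = μ.1 (h⁻¹ • g⁻¹ • a)
    rw [mul_inv_rev, mul_smul])

theorem smul_apply (g : G) (μ : Re P) (a : P) : (g • μ).1 a = μ.1 (g⁻¹ • a) := rfl

theorem smul_apply_smul (g : G) (μ : Re P) (a : P) : (g • μ).1 (g • a) = μ.1 a := by
  rw [smul_apply, inv_smul_smul]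

omit [Group G] [MulAction G P] [CovariantClass G P (· • ·) (· ≤ ·)] in
theorem cont_co (a : P) : Continuous fun μ : Re P => μ.1 a :=
  (continuous_apply a).comp continuous_subtype_val

instance : ContinuousConstSMul G (Re P) :=
  ⟨fun _ => Continuous.subtype_mk (continuous_pi fun _ => cont_co _) _⟩

namespace PG

variable (h : PG G P)
include h

omit [CovariantClass G P (· • ·) (· ≤ ·)] in
theorem free {g : G} {a : P} (e : g • a = a) : g = 1 := h.reg g a a le_rfl e.le

/-- comparable cells of one orbit are equal -/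
theorem eq_one_of_cmp {g : G} {a : P} (e : a ≤ g • a ∨ g • a ≤ a) : g = 1 :=
  e.elim (fun e => h.reg g a _ e le_rfl) fun e => h.reg g a _ le_rfl e

theorem eq_one_of_chain {s : Set P} (hs : IsChain (· ≤ ·) s) {g : G} {a : P} (ha : a ∈ s)
    (hg : g • a ∈ s) : g = 1 := h.eq_one_of_cmp (hs.total ha hg)

/-- a finite lower set which meets every orbit in a cell with all its faces -/
theorem exists_dom : ∃ F : Set P, F.Finite ∧ ∀ c : P, ∃ g : G, ∀ a, a ≤ c → g • a ∈ F := by
  have := h.fin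
  refine ⟨⋃ i : MulAction.orbitRel.Quotient G P, Iic i.out, finite_iUnion fun _ => h.low _,
    fun c => ?_⟩
  obtain ⟨g, hg⟩ : (Quotient.mk (MulAction.orbitRel G P) c).out ∈ MulAction.orbit G c :=
    Quotient.mk_out (s := MulAction.orbitRel G P) c
  exact ⟨g, fun a ha => mem_iUnion.2 ⟨Quotient.mk _ c, (smul_mono g ha).trans hg.le⟩⟩

theorem up (c : P) : (Ici c).Finite := by
  obtain ⟨F, hF, hg⟩ := h.exists_dom
  choose g hg using hg
  refine Finite.of_finite_image (f := fun z => (g z • c, g z • z)) ((hF.prod hF).subset ?_) ?_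
  · rintro _ ⟨z, hz, rfl⟩
    exact ⟨hg z c hz, hg z z le_rfl⟩
  · intro z _ z' _ e
    obtain ⟨e1, e2⟩ := Prod.mk.inj e
    have e3 : (g z')⁻¹ * g z = 1 := h.free (a := c) (by rw [mul_smul, e1, inv_smul_smul])
    rw [← inv_mul_eq_one.1 e3] at e2
    exact smul_left_cancel _ e2

/-- local finiteness -/
theorem lf (a : P) : {b | a ≤ b ∨ b ≤ a}.Finite := (h.up a).union (h.low a)

theorem free_re {g : G} {μ : Re P} {a : P} (ha : μ.1 a ≠ 0) (hb : (g • μ).1 a ≠ 0) : g = 1 :=
  inv_eq_one.1 (h.eq_one_of_chain μ.2.2.2.2 ha hb)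

end PG

omit [Group G] [MulAction G P] [CovariantClass G P (· • ·) (· ≤ ·)]

/-- the support -/
def sp (μ : Re P) : Finset P := μ.2.2.1.toFinset

theorem mem_sp {μ : Re P} {a : P} : a ∈ sp μ ↔ μ.1 a ≠ 0 := Finite.mem_toFinset _

theorem coe_sp (μ : Re P) : (sp μ : Set P) = support μ.1 := Finite.coe_toFinset _

theorem sum_of_sub {μ : Re P} {t : Finset P} (ht : support μ.1 ⊆ t) : ∑ a ∈ t, μ.1 a = 1 :=
  (finsum_eq_sum_of_support_subset _ ht).symm.trans μ.2.2.2.1

theorem sum_sp (μ : Re P) : ∑ a ∈ sp μ, μ.1 a = 1 := sum_of_sub (coe_sp μ).ge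

theorem sp_nonempty (μ : Re P) : (sp μ).Nonempty :=
  Finset.nonempty_of_sum_ne_zero (by rw [sum_sp]; exact one_ne_zero)

theorem chain_sp (μ : Re P) : IsChain (· ≤ ·) (sp μ : Set P) := coe_sp μ ▸ μ.2.2.2.2

theorem exists_top {t : Finset P} (hn : t.Nonempty) (ht : IsChain (· ≤ ·) (t : Set P)) :
    ∃ m ∈ t, ∀ a ∈ t, a ≤ m := by
  obtain ⟨m, hm⟩ := t.exists_maximal hn
  exact ⟨m, hm.1, fun a ha => (ht.total ha hm.1).elim id fun e => hm.2 ha e⟩

theorem co_le_one (μ : Re P) (a : P) : μ.1 a ≤ 1 := by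
  by_cases ha : a ∈ sp μ
  · exact (Finset.single_le_sum (fun b _ => μ.2.1 b) ha).trans (sum_sp μ).le
  · rw [not_not.1 (mem_sp.not.1 ha)]; exact zero_le_one

/-- finite subcomplexes are compact -/
theorem isCompact_sub {F : Set P} (hF : F.Finite) : IsCompact {μ : Re P | support μ.1 ⊆ F} := by
  refine Topology.IsInducing.subtypeVal.isCompact_iff.2 ?_
  have e : Subtype.val '' {μ : Re P | support μ.1 ⊆ F} = (pi univ fun _ => Icc 0 1) ∩
      ((⋂ a ∉ F, {μ | μ a = 0}) ∩ ({μ | ∑ a ∈ hF.toFinset, μ a = 1} ∩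
        ⋂ a, ⋂ b, ⋂ _ : ¬(a ≤ b ∨ b ≤ a), {μ | μ a * μ b = 0})) := by
    ext μ
    simp only [mem_inter_iff, mem_iInter, mem_setOf_eq, mem_pi, mem_univ, forall_const]
    constructor
    · rintro ⟨ν, hν, rfl⟩
      refine ⟨fun a => ⟨ν.2.1 a, co_le_one ν a⟩, fun a ha => not_not.1 fun e => ha (hν e),
        sum_of_sub (hF.coe_toFinset.symm ▸ hν), fun a b hab => ?_⟩
      by_contra e
      exact hab (ν.2.2.2.2.total (left_ne_zero_of_mul e) (right_ne_zero_of_mul e))
    · rintro ⟨h1, h2, h3, h4⟩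
      have hs : support μ ⊆ F := fun a ha => not_not.1 fun e => ha (h2 a e)
      refine ⟨⟨μ, fun a => (h1 a).1, hF.subset hs,
        (finsum_eq_sum_of_support_subset _ (by simpa using hs)).trans h3, fun a ha b hb _ => ?_⟩,
        hs, rfl⟩
      by_contra e
      exact mul_ne_zero ha hb (h4 a b e)
  refine e ▸ (isCompact_univ_pi fun _ => isCompact_Icc).inter_right ?_
  refine (isClosed_biInter fun a _ => isClosed_eq (continuous_apply a) continuous_const).inter
    ((isClosed_eq (by fun_prop) continuous_const).inter ?_)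
  exact isClosed_iInter fun a => isClosed_iInter fun b => isClosed_iInter fun _ =>
    isClosed_eq (by fun_prop) continuous_const

end Crest.Agent.N255.Kc

end
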